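import Vale.Agent.Lib.P302.Assemble
import Vale.Agent.Lib.P302.Frac

/-!
# P302: a bin packing instance with OPT - LP = 53/44
-/

namespace Vale.Agent.Results.P302.GapA

open Vale.Agent.Lib.P302

/-- The item sizes, in units of 1/20400. -/
def items : List ℕ :=
  [16648, 16640, 16638, 10488, 10480, 10478, 8880, 6806, 6803, 6801, 6798, 6797, 6794, 5000, 4965, 4961, 4960, 4957, 4956, 4955, 1920, 1885, 1881, 1880, 1877, 1876, 1875]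

/-- The label (first level size) of an item size. -/
def lab (x : ℕ) : ℕ := (x + 20) / 40

/-- The classes: first level pattern and the number of perfect bins that it may fill. -/
def classes : List (List ℕ × ℕ) :=
  [([170, 170, 170], 1), ([262, 124, 124], 2), ([416, 47, 47], 2)]

/-- The configurations of the fractional solution (numbers of copies of each item). -/
def pats : List (List ℕ) :=
  [[0, 0, 0, 0, 0, 1, 0, 0, 0, 0, 0, 0, 0, 0, 0, 2, 0, 0, 0, 0, 0, 0, 0, 0, 0, 0, 0],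
   [0, 0, 0, 0, 0, 0, 0, 1, 0, 0, 0, 2, 0, 0, 0, 0, 0, 0, 0, 0, 0, 0, 0, 0, 0, 0, 0],
   [0, 0, 1, 0, 0, 0, 0, 0, 0, 0, 0, 0, 0, 0, 0, 0, 0, 0, 0, 0, 0, 0, 2, 0, 0, 0, 0],
   [1, 0, 0, 0, 0, 0, 0, 0, 0, 0, 0, 0, 0, 0, 0, 0, 0, 0, 0, 0, 0, 0, 0, 0, 1, 0, 1],
   [0, 0, 0, 1, 0, 0, 0, 0, 0, 0, 0, 0, 0, 0, 0, 0, 0, 1, 0, 1, 0, 0, 0, 0, 0, 0, 0],
   [0, 0, 0, 0, 0, 1, 0, 0, 0, 0, 0, 0, 0, 0, 1, 0, 0, 1, 0, 0, 0, 0, 0, 0, 0, 0, 0],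
   [1, 0, 0, 0, 0, 0, 0, 0, 0, 0, 0, 0, 0, 0, 0, 0, 0, 0, 0, 0, 0, 0, 0, 0, 0, 2, 0],
   [0, 0, 1, 0, 0, 0, 0, 0, 0, 0, 0, 0, 0, 0, 0, 0, 0, 0, 0, 0, 0, 1, 0, 0, 1, 0, 0],
   [0, 0, 0, 0, 0, 0, 0, 1, 0, 0, 1, 0, 1, 0, 0, 0, 0, 0, 0, 0, 0, 0, 0, 0, 0, 0, 0],
   [0, 0, 0, 0, 0, 0, 0, 0, 0, 0, 0, 0, 0, 4, 0, 0, 0, 0, 0, 0, 0, 0, 0, 0, 0, 0, 0],
   [0, 0, 0, 0, 1, 0, 0, 0, 0, 0, 0, 0, 0, 0, 0, 0, 2, 0, 0, 0, 0, 0, 0, 0, 0, 0, 0],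
   [0, 0, 0, 0, 0, 0, 0, 0, 0, 2, 1, 0, 0, 0, 0, 0, 0, 0, 0, 0, 0, 0, 0, 0, 0, 0, 0],
   [0, 0, 0, 0, 1, 0, 0, 0, 0, 0, 0, 0, 0, 0, 1, 0, 0, 0, 0, 1, 0, 0, 0, 0, 0, 0, 0],
   [0, 0, 0, 0, 0, 0, 1, 0, 0, 0, 0, 0, 0, 0, 0, 0, 0, 0, 0, 0, 6, 0, 0, 0, 0, 0, 0],
   [0, 1, 0, 0, 0, 0, 0, 0, 0, 0, 0, 0, 0, 0, 0, 0, 0, 0, 0, 0, 0, 1, 0, 0, 0, 0, 1],
   [0, 0, 0, 1, 0, 0, 0, 0, 0, 0, 0, 0, 0, 0, 0, 0, 0, 0, 2, 0, 0, 0, 0, 0, 0, 0, 0],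
   [0, 1, 0, 0, 0, 0, 0, 0, 0, 0, 0, 0, 0, 0, 0, 0, 0, 0, 0, 0, 0, 0, 0, 2, 0, 0, 0],
   [0, 0, 0, 0, 0, 0, 2, 0, 0, 0, 0, 0, 0, 0, 0, 0, 0, 0, 0, 0, 1, 0, 0, 0, 0, 0, 0],
   [0, 0, 0, 0, 0, 0, 0, 0, 2, 0, 0, 0, 1, 0, 0, 0, 0, 0, 0, 0, 0, 0, 0, 0, 0, 0, 0]]

/-- The weights of the configurations, in units of 1/44. -/
def wts : List ℕ := [22, 22, 22, 22, 22, 22, 22, 22, 22, 11, 22, 22, 22, 4, 22, 22, 22, 20, 22]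

/-- The configurations as a matrix. -/
def cnt (k : Fin 19) (i : Fin items.length) : ℕ := (pats.getD k []).getD i 0

/-- The weights as a function. -/
def wt (k : Fin 19) : ℕ := wts.getD k 0

theorem h0 : ∀ i, 0 < items.get i := by decide +kernel

theorem h1 : ∀ i, items.get i ≤ 20400 := by decide +kernel

theorem hC : 0 < 20400 := by decide

theorem hlow : 9 < OPT (ofNat items.get 20400 h0 h1 hC) :=
  lt_OPT_of_npt items 20400 40 510 9 lab classes h0 h1 hC (by decide +kernel)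
    (by decide +kernel) (by decide +kernel) (by decide +kernel)

theorem hup : LP (ofNat items.get 20400 h0 h1 hC) ≤ 387 / 44 := by
  have h := LP_le_nat items.get 20400 44 h0 h1 hC (by decide) cnt wt
    (by decide +kernel) (by decide +kernel)
  have e : ∑ k, wt k = 387 := by decide +kernel
  rw [e] at h
  norm_num at h
  exact h

/-- There is a bin packing instance with OPT - LP at least 53/44. -/
theorem result : ∃ I : Inst, (53 : ℝ) / 44 ≤ (OPT I : ℝ) - LP I := by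
  refine ⟨ofNat items.get 20400 h0 h1 hC, ?_⟩
  have h2 : ((9 + 1 : ℕ) : ℝ) ≤ (OPT (ofNat items.get 20400 h0 h1 hC) : ℝ) := by
    exact_mod_cast hlow
  have h3 := hup
  push_cast at h2
  linarith

end Vale.Agent.Results.P302.GapA
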