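import Vale.Agent.Results.P302.GapC
import Vale.Agent.Lib.P302.AddOne

/-!
# P302: for every k >= 16 a bin packing instance with OPT = k and OPT - LP at least 5/4
-/

namespace Vale.Agent.Results.P302.GapD

open Vale.Agent.Lib.P302

/-- A packing into 16 bins. -/
def asg : List ℕ := [0, 1, 2, 3, 4, 5, 6, 7, 8, 9, 6, 7, 8, 3, 4, 5, 9, 10, 10, 10, 11, 11, 11, 12, 12, 12, 13, 13, 13, 13, 14, 14, 14, 14, 15, 15, 15, 15, 15, 9, 11, 0, 1, 0]

/-- The packing as a function. -/
def pk (i : Fin GapC.items.length) : Fin 16 :=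
  ⟨asg.getD i 0 % 16, Nat.mod_lt _ (by decide)⟩

/-- The base instance. -/
noncomputable def base : Inst :=
  ofNat GapC.items.get 2882880000 GapC.h0 GapC.h1 GapC.hC

theorem pk_ok : ∀ j : Fin 16, ∑ i ∈ Finset.univ.filter (fun i => pk i = j),
    GapC.items.get i ≤ 2882880000 := by decide +kernel

theorem base_opt : OPT base = 16 := by
  apply le_antisymm
  · apply Nat.sInf_le
    refine ⟨pk, ?_⟩
    intro j
    change ∑ i ∈ Finset.univ.filter (fun i => pk i = j),
      ((GapC.items.get i : ℕ) : ℚ) / ((2882880000 : ℕ) : ℚ) ≤ 1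
    rw [← Finset.sum_div, div_le_one (by norm_num)]
    exact_mod_cast pk_ok j
  · exact GapC.hlow

theorem base_lp : LP base ≤ 59 / 4 := GapC.hup

theorem step : ∀ m : ℕ, ∃ I : Inst, OPT I = 16 + m ∧ LP I ≤ 59 / 4 + (m : ℝ)
  | 0 => ⟨base, base_opt, by simpa using base_lp⟩
  | m + 1 => by
    obtain ⟨I, h1, h2⟩ := step m
    refine ⟨addOne I, ?_, ?_⟩
    · have h3 := OPT_addOne_ge I
      have h4 := OPT_addOne_le I
      omega
    · have h5 := LP_addOne_le I
      push_cast
      linarith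

/-- For every `k >= 16` there is a bin packing instance with `OPT = k` and
`OPT - LP` at least `5/4`. -/
theorem result : ∀ k : ℕ, 16 ≤ k → ∃ I : Inst, OPT I = k ∧ (5 : ℝ) / 4 ≤ (k : ℝ) - LP I := by
  intro k hk
  obtain ⟨I, h1, h2⟩ := step (k - 16)
  refine ⟨I, by omega, ?_⟩
  have h3 : ((k - 16 : ℕ) : ℝ) = (k : ℝ) - 16 := by
    rw [Nat.cast_sub hk]
    norm_num
  rw [h3] at h2
  linarith

end Vale.Agent.Results.P302.GapD
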